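import Vale.Agent.Lib.P170.Defs
import Vale.Agent.Lib.P170.Final

/-!
# P170: the satisfiability threshold conjecture

For every `k ≥ 3`, random `k`-SAT has a limiting threshold.
-/

namespace Vale.Agent.Results.P170.LimitingThreshold

open Vale.Agent.P170

/-- **Answer to Q1.** For every `k ≥ 3` there is a real `α > 0` such that the probability that
`⌊c n⌋` independent uniformly random proper `k`-clauses on `n` variables are jointly satisfiable
tends to `1` for every `0 ≤ c < α` and to `0` for every `c > α`, as `n → ∞`. -/
theorem result : ∀ k : ℕ, 3 ≤ k → ∃ α : ℝ, HasLimitingThreshold k α :=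
  fun k hk => main k hk

end Vale.Agent.Results.P170.LimitingThreshold
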