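import Vale.Agent.Lib.P170D.Bridge

/-!
# P170: the satisfiability threshold conjecture, counting form

A proper `k`-CNF formula with `m` clauses on the variables `x_0, …, x_{n-1}` is written as an
`m × n` matrix `F` with entries in `Option Bool`: `F j i` is `none` if the variable `x_i` does
not occur in the clause `j`, `some true` if the literal `x_i` occurs there, and `some false` if
the literal `¬ x_i` occurs there.  Every row has exactly `k` entries different from `none`.
-/

namespace Vale.Agent.Results.P170.MatrixCount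

open Filter Topology

/-- `P_{k,n}(m)`, the probability that the conjunction of `m` independent uniformly random proper
`k`-clauses on `n` variables is satisfiable: the number of satisfiable formulas (there is `x` such
that every row `j` has an entry `F j i = some (x i)`) divided by `(2 ^ k * n.choose k) ^ m`. -/
noncomputable def P (k n m : ℕ) : ℝ :=
  (Nat.card {F : Fin m → Fin n → Option Bool // (∀ j, Nat.card {i // F j i ≠ none} = k) ∧
      ∃ x : Fin n → Bool, ∀ j, ∃ i, F j i = some (x i)} : ℝ) / (2 ^ k * (n.choose k : ℝ)) ^ m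

/-- The denominator is the number of all formulas with `m` clauses. -/
theorem number_of_formulas (k n m : ℕ) :
    Nat.card {F : Fin m → Fin n → Option Bool // ∀ j, Nat.card {i // F j i ≠ none} = k} =
      (2 ^ k * n.choose k) ^ m :=
  Vale.Agent.P170D.card_formulas k n m

/-- **Satisfiability threshold conjecture.**  For every `k ≥ 3` there is a real `α > 0` with
`P_{k,n}(⌊c n⌋) → 1` for `0 ≤ c < α` and `P_{k,n}(⌊c n⌋) → 0` for `c > α`; moreover every sequence
`r_k(n)` as in Friedgut's theorem converges to `α`. -/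
theorem result : ∀ k : ℕ, 3 ≤ k → ∃ α : ℝ, 0 < α ∧
    (∀ c : ℝ, 0 ≤ c → c < α → Tendsto (fun n : ℕ => P k n ⌊c * n⌋₊) atTop (𝓝 1)) ∧
    (∀ c : ℝ, α < c → Tendsto (fun n : ℕ => P k n ⌊c * n⌋₊) atTop (𝓝 0)) ∧
    ∀ r : ℕ → ℝ, (∀ ε : ℝ, 0 < ε →
        Tendsto (fun n : ℕ => P k n ⌊(r n - ε) * n⌋₊) atTop (𝓝 1) ∧
        Tendsto (fun n : ℕ => P k n ⌊(r n + ε) * n⌋₊) atTop (𝓝 0)) →
      Tendsto r atTop (𝓝 α) := by
  intro k hk
  obtain ⟨α, h, h1, h0⟩ := Vale.Agent.P170.main k hk
  have e : ∀ n m, P k n m = Vale.Agent.P170.satProb k n m :=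
    fun n m => (Vale.Agent.P170D.satProb_eq_matrix k n m).symm
  refine ⟨α, h, ?_⟩
  simp only [e]
  exact ⟨h1, h0, fun r hr => Vale.Agent.P170D.friedgut h h1 h0 r hr⟩

end Vale.Agent.Results.P170.MatrixCount
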