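import Vale.Agent.Lib.P170B.Main
import Vale.Agent.Lib.P170.Final

/-!
# P170: the satisfiability threshold conjecture, for arbitrary realisations of the random model
-/

namespace Vale.Agent.Results.P170.UniformProcess

open MeasureTheory Filter Topology Vale.Agent.P170B

/-- **Satisfiability threshold conjecture.**  Let `k ≥ 3`.  Random proper `k`-clauses exist for
every `n ≥ k`, and there is a real `α > 0` such that, whatever the probability spaces and
the independent uniformly distributed random proper `k`-clauses `C n 0, C n 1, …` on `n` variables,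
the formula `C n 0 ∧ … ∧ C n (⌊c n⌋ - 1)` is satisfiable with probability tending to `1` if
`0 ≤ c < α` and to `0` if `α < c`; moreover every sequence `r` as in Friedgut's theorem
converges to `α`. -/
theorem result : ∀ k : ℕ, 3 ≤ k →
    (∀ n, k ≤ n → ∃ (Ω : Type) (_ : MeasurableSpace Ω) (P : Measure Ω)
      (C : ℕ → Ω → Clause k n), IsClauseProcess P C) ∧
    ∃ α : ℝ, 0 < α ∧
      ∀ (Ω : ℕ → Type) (_ : ∀ n, MeasurableSpace (Ω n)) (P : ∀ n, Measure (Ω n))
        (C : ∀ n, ℕ → Ω n → Clause k n), (∀ n, k ≤ n → IsClauseProcess (P n) (C n)) →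
        (∀ c : ℝ, 0 ≤ c → c < α →
          Tendsto (fun n : ℕ => (P n).real (satEvent (C n) ⌊c * n⌋₊)) atTop (𝓝 1)) ∧
        (∀ c : ℝ, α < c →
          Tendsto (fun n : ℕ => (P n).real (satEvent (C n) ⌊c * n⌋₊)) atTop (𝓝 0)) ∧
        ∀ r : ℕ → ℝ, (∀ ε : ℝ, 0 < ε →
            Tendsto (fun n : ℕ => (P n).real (satEvent (C n) ⌊(r n - ε) * n⌋₊)) atTop (𝓝 1) ∧
            Tendsto (fun n : ℕ => (P n).real (satEvent (C n) ⌊(r n + ε) * n⌋₊)) atTop (𝓝 0)) →
          Tendsto r atTop (𝓝 α) := by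
  intro k hk
  refine ⟨fun n hn => exists_process k n hn, ?_⟩
  obtain ⟨α, hα⟩ := Vale.Agent.P170.main k hk
  refine ⟨α, hα.1, fun Ω _ P C h => ?_⟩
  obtain ⟨h1, h0⟩ := limits_of h hα
  exact ⟨h1, h0, fun r hr => friedgut_limit h hα.1 h1 h0 r hr⟩

end Vale.Agent.Results.P170.UniformProcess
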